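import Vale.Agent.P204.Algebra

/-!
Two-forms on four-space as six numbers, and the action of a linear complex structure on them.
-/

open scoped Matrix

namespace Vale.Agent.P204.Bridge

/-- The skew matrix of a two-form. -/
def mk (u : F6) : Matrix (Fin 4) (Fin 4) ℝ :=
  !![0, u 2, -u 1, u 3; -u 2, 0, u 0, u 4; u 1, -u 0, 0, u 5; -u 3, -u 4, -u 5, 0]

/-- The components of a two-form. -/
def t6 (M : Matrix (Fin 4) (Fin 4) ℝ) : F6 :=
  ![M 1 2, M 2 0, M 0 1, M 0 3, M 1 3, M 2 3]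

lemma t6_mk (u : F6) : t6 (mk u) = u := by
  funext i; fin_cases i <;> rfl

lemma mk_transpose (u : F6) : (mk u)ᵀ = -mk u := by
  ext a b; fin_cases a <;> fin_cases b <;> simp [mk]

lemma mk_t6 {M : Matrix (Fin 4) (Fin 4) ℝ} (h : Mᵀ = -M) : mk (t6 M) = M := by
  have h' : ∀ a b, M b a = -M a b := fun a b => congr_fun (congr_fun h a) b
  ext a b
  fin_cases a <;> fin_cases b <;>
    simp [mk, t6, h' 0 1, h' 0 2, h' 0 3, h' 1 2, h' 1 3, h' 2 3] <;>
    linarith [h' 0 0, h' 1 1, h' 2 2, h' 3 3]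

lemma mk_add (u v : F6) : mk (u + v) = mk u + mk v := by
  ext a b; fin_cases a <;> fin_cases b <;> simp [mk] <;> ring

lemma mk_smul (c : ℝ) (u : F6) : mk (c • u) = c • mk u := by
  ext a b; fin_cases a <;> fin_cases b <;> simp [mk]

/-- The entries of the matrix of a form are linear in the form. -/
def entry (a b : Fin 4) : F6 →ₗ[ℝ] ℝ where
  toFun u := mk u a b
  map_add' u v := congr_fun (congr_fun (mk_add u v) a) b
  map_smul' c u := congr_fun (congr_fun (mk_smul c u) a) b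

lemma congr_skew (K : Matrix (Fin 4) (Fin 4) ℝ) (u : F6) :
    (Kᵀ * mk u * K)ᵀ = -(Kᵀ * mk u * K) := by
  simp [Matrix.transpose_mul, mk_transpose, Matrix.mul_assoc]

/-- The pull back of a form by an endomorphism. -/
def T (K : Matrix (Fin 4) (Fin 4) ℝ) : F6 →ₗ[ℝ] F6 where
  toFun u := t6 (Kᵀ * mk u * K)
  map_add' u v := by
    funext i; fin_cases i <;> simp [t6, mk_add, Matrix.mul_add, Matrix.add_mul]
  map_smul' c u := by
    funext i; fin_cases i <;> simp [t6, mk_smul]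

lemma mk_T (K : Matrix (Fin 4) (Fin 4) ℝ) (u : F6) : mk (T K u) = Kᵀ * mk u * K :=
  mk_t6 (congr_skew K u)

/-- The projection on the anti-invariant forms. -/
noncomputable def prM (K : Matrix (Fin 4) (Fin 4) ℝ) : Matrix (Fin 6) (Fin 6) ℝ :=
  LinearMap.toMatrix' ((1 / 2 : ℝ) • (LinearMap.id - T K))

lemma prM_mulVec (K : Matrix (Fin 4) (Fin 4) ℝ) (u : F6) :
    prM K *ᵥ u = (1 / 2 : ℝ) • (u - T K u) := by
  rw [prM, LinearMap.toMatrix'_mulVec]; rfl

lemma q_eq (s : ℝ) (u v : F6) : qR s u v =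
    s * (u 0 * v 3 + u 1 * v 4 + u 2 * v 5 + u 3 * v 0 + u 4 * v 1 + u 5 * v 2) := by
  simp [qR, Fin.sum_univ_six]

lemma qR_one (s : ℝ) (u v : F6) : qR s u v = s * qR 1 u v := by simp [qR]

lemma congr_apply (P M : Matrix (Fin 4) (Fin 4) ℝ) (a b : Fin 4) :
    (Pᵀ * M * P) a b = (fun i => P i a) ⬝ᵥ M *ᵥ (fun i => P i b) := by
  rw [Matrix.mul_assoc]; rfl

lemma det_four (P : Matrix (Fin 4) (Fin 4) ℝ) : P.det =
    P 0 0 * (P 1 1 * (P 2 2 * P 3 3 - P 2 3 * P 3 2) - P 1 2 * (P 2 1 * P 3 3 - P 2 3 * P 3 1)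
      + P 1 3 * (P 2 1 * P 3 2 - P 2 2 * P 3 1))
    - P 0 1 * (P 1 0 * (P 2 2 * P 3 3 - P 2 3 * P 3 2) - P 1 2 * (P 2 0 * P 3 3 - P 2 3 * P 3 0)
      + P 1 3 * (P 2 0 * P 3 2 - P 2 2 * P 3 0))
    + P 0 2 * (P 1 0 * (P 2 1 * P 3 3 - P 2 3 * P 3 1) - P 1 1 * (P 2 0 * P 3 3 - P 2 3 * P 3 0)
      + P 1 3 * (P 2 0 * P 3 1 - P 2 1 * P 3 0))
    - P 0 3 * (P 1 0 * (P 2 1 * P 3 2 - P 2 2 * P 3 1) - P 1 1 * (P 2 0 * P 3 2 - P 2 2 * P 3 0)
      + P 1 2 * (P 2 0 * P 3 1 - P 2 1 * P 3 0)) := by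
  rw [Matrix.det_succ_row_zero]
  simp [Matrix.det_fin_three, Fin.sum_univ_succ, Fin.succAbove]
  ring

/-- The wedge pairing is multiplied by the determinant under pull back. -/
lemma q_congr (P : Matrix (Fin 4) (Fin 4) ℝ) (u v : F6) :
    qR 1 (t6 (Pᵀ * mk u * P)) (t6 (Pᵀ * mk v * P)) = P.det * qR 1 u v := by
  rw [det_four]
  simp [q_eq, t6, mk, Matrix.mul_apply, Fin.sum_univ_four]
  ring

lemma det_eq_one {K : Matrix (Fin 4) (Fin 4) ℝ} (hK : K * K = -1) : K.det = 1 := by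
  have h1 : K.det * K.det = 1 := by rw [← Matrix.det_mul, hK, Matrix.det_neg]; norm_num
  rcases mul_self_eq_one_iff.1 h1 with h | h
  · exact h
  · set A : ℝ → Matrix (Fin 4) (Fin 4) ℝ := fun t => Real.cos t • 1 + Real.sin t • K with hA
    have hc : Continuous fun t => (A t).det := by
      apply Continuous.matrix_det
      simp only [hA]; fun_prop
    obtain ⟨t, ht⟩ := intermediate_value_univ (Real.pi / 2) 0 hc
      (show (0 : ℝ) ∈ Set.Icc _ _ from by simp [hA, h])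
    have hi : A t * (Real.cos t • 1 - Real.sin t • K) = 1 := by
      simp only [hA, Matrix.add_mul, Matrix.mul_sub, smul_mul_assoc, mul_smul_comm, one_mul,
        mul_one, hK, smul_neg]
      match_scalars
      · linarith [Real.sin_sq_add_cos_sq t]
      · ring
    have := congrArg Matrix.det hi
    replace ht : (A t).det = 0 := ht
    rw [Matrix.det_mul, ht, zero_mul, Matrix.det_one] at this
    exact absurd this zero_ne_one

variable {K : Matrix (Fin 4) (Fin 4) ℝ}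

lemma T_T (hK : K * K = -1) (u : F6) : T K (T K u) = u := by
  change t6 (Kᵀ * mk (T K u) * K) = u
  have hK' : Kᵀ * Kᵀ = -1 := by rw [← Matrix.transpose_mul, hK]; simp
  rw [mk_T, show Kᵀ * (Kᵀ * mk u * K) * K = Kᵀ * Kᵀ * mk u * (K * K) by
    simp only [Matrix.mul_assoc], hK, hK']
  simp [t6_mk]

lemma q_T (hK : K * K = -1) (s : ℝ) (u v : F6) : qR s (T K u) (T K v) = qR s u v := by
  rw [qR_one, qR_one s u v]
  congr 1
  exact (q_congr K u v).trans (by rw [det_eq_one hK, one_mul])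

lemma prM_idem (hK : K * K = -1) : prM K * prM K = prM K := by
  refine Matrix.ext_of_mulVec_single fun j => ?_
  rw [← Matrix.mulVec_mulVec, prM_mulVec, prM_mulVec, map_smul, map_sub, T_T hK]
  module

lemma prM_selfAdj (hK : K * K = -1) (s : ℝ) (u v : F6) :
    qR s (prM K *ᵥ u) v = qR s u (prM K *ᵥ v) := by
  rw [prM_mulVec, prM_mulVec, qR_smul_left, qR_smul_right, qR_sub_left, qR_sub_right,
    ← q_T hK s (T K u) v, T_T hK]

lemma prM_eq_zero_iff (u : F6) : prM K *ᵥ u = 0 ↔ T K u = u := by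
  rw [prM_mulVec, smul_eq_zero, sub_eq_zero]
  simp [eq_comm]

lemma prM_fix_iff (u : F6) : prM K *ᵥ u = u ↔ T K u = -u := by
  rw [prM_mulVec]
  constructor <;> intro h
  · linear_combination (norm := module) -(2 : ℝ) • h
  · rw [h]; module

/-- The value of a form on two vectors. -/
def B (u : F6) (x y : Fin 4 → ℝ) : ℝ := x ⬝ᵥ mk u *ᵥ y

lemma B_skew (u : F6) (x y : Fin 4 → ℝ) : B u y x = -B u x y := by
  simp only [B]
  rw [Matrix.dotProduct_mulVec, ← Matrix.mulVec_transpose, mk_transpose, Matrix.neg_mulVec,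
    neg_dotProduct, dotProduct_comm]

lemma B_self (u : F6) (x : Fin 4 → ℝ) : B u x x = 0 := by linarith [B_skew u x x]

lemma B_add_left (u : F6) (x y z : Fin 4 → ℝ) : B u (x + y) z = B u x z + B u y z :=
  add_dotProduct x y _

lemma B_add_right (u : F6) (x y z : Fin 4 → ℝ) : B u x (y + z) = B u x y + B u x z := by
  simp [B, Matrix.mulVec_add, dotProduct_add]

lemma B_smul_left (u : F6) (c : ℝ) (x y : Fin 4 → ℝ) : B u (c • x) y = c * B u x y := by
  simp [B]

lemma B_smul_right (u : F6) (c : ℝ) (x y : Fin 4 → ℝ) : B u x (c • y) = c * B u x y := by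
  simp [B, Matrix.mulVec_smul]

lemma B_neg_left (u : F6) (x y : Fin 4 → ℝ) : B u (-x) y = -B u x y := by simp [B]

lemma B_neg_right (u : F6) (x y : Fin 4 → ℝ) : B u x (-y) = -B u x y := by
  simp [B, Matrix.mulVec_neg]

lemma B_form_add (u v : F6) (x y : Fin 4 → ℝ) : B (u + v) x y = B u x y + B v x y := by
  simp [B, mk_add, Matrix.add_mulVec, dotProduct_add]

lemma B_form_smul (c : ℝ) (u : F6) (x y : Fin 4 → ℝ) : B (c • u) x y = c * B u x y := by
  simp [B, mk_smul, Matrix.smul_mulVec]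

lemma B_sum (w : Fin 3 → F6) (x y : Fin 4 → ℝ) : B (∑ i, w i) x y = ∑ i, B (w i) x y := by
  simp [Fin.sum_univ_three, B_form_add]

lemma B_T (u : F6) (x y : Fin 4 → ℝ) : B (T K u) x y = B u (K *ᵥ x) (K *ᵥ y) := by
  simp only [B, mk_T]
  rw [← Matrix.mulVec_mulVec, ← Matrix.mulVec_mulVec, Matrix.dotProduct_mulVec,
    Matrix.vecMul_transpose]

lemma B_ext {u v : F6} (h : ∀ x y, B u x y = B v x y) : u = v := by
  rw [← t6_mk u, ← t6_mk v]
  congr 1
  ext a b
  simpa [B] using h (Pi.single a 1) (Pi.single b 1)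

lemma K_K (hK : K * K = -1) (x : Fin 4 → ℝ) : K *ᵥ K *ᵥ x = -x := by
  rw [Matrix.mulVec_mulVec, hK, Matrix.neg_mulVec, Matrix.one_mulVec]

end Vale.Agent.P204.Bridge
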