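import Vale.Agent.P204.Four
import Vale.Agent.P204.Bridge.Forms

/-!
From periodic functions on space to functions on the torus, averages along the last coordinate,
and closedness of forms on coefficients.
-/

open MeasureTheory Filter Topology
open scoped ContDiff Matrix

namespace Vale.Agent.P204.Bridge

open Four

/-- The inclusion of three-space. -/
def emb : (Fin 3 → ℝ) →L[ℝ] (Fin 4 → ℝ) :=
  ContinuousLinearMap.pi
    ![ContinuousLinearMap.proj 0, ContinuousLinearMap.proj 1, ContinuousLinearMap.proj 2, 0]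

/-- The projection on three-space. -/
def base : (Fin 4 → ℝ) →L[ℝ] (Fin 3 → ℝ) :=
  ContinuousLinearMap.pi fun i => ContinuousLinearMap.proj i.castSucc

lemma emb_single (i : Fin 3) :
    emb (Pi.single i 1) = (Pi.single i.castSucc 1 : Fin 4 → ℝ) := by
  funext j; fin_cases i <;> fin_cases j <;> simp [emb]

lemma base_single (i : Fin 3) :
    base (Pi.single i.castSucc 1) = (Pi.single i 1 : Fin 3 → ℝ) := by
  funext j; fin_cases i <;> fin_cases j <;> simp [base]

lemma base_single_three : base (Pi.single 3 1) = 0 := by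
  funext j; fin_cases j <;> simp [base]

lemma emb_base (x : Fin 4 → ℝ) : emb (base x) + Pi.single 3 (x 3) = x := by
  funext j; fin_cases j <;> simp [emb, base]

lemma emb_add_int (y : Fin 3 → ℝ) (n : Idx) : emb (y + fun i => (n i : ℝ)) =
    fun i => emb y i + ((![n 0, n 1, n 2, 0] i : ℤ) : ℝ) := by
  funext j; fin_cases j <;> simp [emb]

/-- A periodic function depends on the point of the torus only. -/
lemma periodic_eq {E : Type*} {f : (Fin 3 → ℝ) → E}
    (hf : ∀ y (n : Idx), f (y + fun i => (n i : ℝ)) = f y) {a b : Fin 3 → ℝ} (h : pt a = pt b) :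
    f a = f b := by
  have h0 : ∀ i, ∃ n : ℤ, n • (1 : ℝ) = b i - a i := fun i => by
    refine (AddCircle.coe_eq_zero_iff (1 : ℝ)).1 ?_
    rw [AddCircle.coe_sub, sub_eq_zero]
    exact (congr_fun h i).symm
  choose n hn using h0
  rw [show b = a + fun i => (n i : ℝ) from funext fun i => by
    have := hn i
    rw [zsmul_one] at this
    simp [this]]
  exact (hf a n).symm

/-- A function on the torus, from a periodic one. -/
noncomputable def desc {E : Type*} (f : (Fin 3 → ℝ) → E) (z : T3) : E :=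
  f (Function.surjInv pt_surj z)

lemma desc_pt {E : Type*} {f : (Fin 3 → ℝ) → E}
    (hf : ∀ y (n : Idx), f (y + fun i => (n i : ℝ)) = f y) (y : Fin 3 → ℝ) :
    desc f (pt y) = f y :=
  periodic_eq hf (Function.surjInv_eq pt_surj _)

section param

variable {H : Type} [NormedAddCommGroup H] [NormedSpace ℝ H] [FiniteDimensional ℝ H]

lemma hasFDerivAt_param {X : Type} [NormedAddCommGroup X] [NormedSpace ℝ X] [CompleteSpace X]
    {F : ℝ × H → X} (hF : ContDiff ℝ 1 F) (w₀ : H) :
    HasFDerivAt (fun w => ∫ q in (0 : ℝ)..1, F (q, w))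
      (∫ q in (0 : ℝ)..1, (fderiv ℝ F (q, w₀)).comp (ContinuousLinearMap.inr ℝ ℝ H)) w₀ := by
  set F' : ℝ × H → H →L[ℝ] X := fun p =>
    (fderiv ℝ F p).comp (ContinuousLinearMap.inr ℝ ℝ H)
  have hc : Continuous F := hF.continuous
  have hc' : Continuous F' := (hF.continuous_fderiv (by simp)).clm_comp continuous_const
  have hcw : ∀ w, Continuous fun q => F (q, w) := fun w =>
    hc.comp (continuous_id.prodMk continuous_const)
  have hcw' : Continuous fun q => F' (q, w₀) := hc'.comp (continuous_id.prodMk continuous_const)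
  obtain ⟨M, hM⟩ := ((isCompact_uIcc (a := (0 : ℝ)) (b := 1)).prod
    (isCompact_closedBall w₀ 1)).exists_bound_of_continuousOn hc'.continuousOn
  exact intervalIntegral.hasFDerivAt_integral_of_dominated_of_fderiv_le
    (F' := fun w q => F' (q, w)) (bound := fun _ => M) (Metric.closedBall_mem_nhds w₀ one_pos)
    (Eventually.of_forall fun w => (hcw w).aestronglyMeasurable)
    ((hcw w₀).intervalIntegrable _ _) hcw'.aestronglyMeasurable
    (ae_of_all _ fun q hq w hw => hM (q, w) ⟨Set.uIoc_subset_uIcc hq, hw⟩)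
    intervalIntegrable_const
    (ae_of_all _ fun q _ w _ => (hF.differentiable (by simp) (q, w)).hasFDerivAt.comp w
      ((hasFDerivAt_const q w).prodMk (hasFDerivAt_id w)))

lemma contDiff_param (n : ℕ) : ∀ {X : Type} [NormedAddCommGroup X] [NormedSpace ℝ X]
    [CompleteSpace X] {F : ℝ × H → X}, ContDiff ℝ ∞ F →
      ContDiff ℝ n fun w => ∫ q in (0 : ℝ)..1, F (q, w) := by
  induction n with
  | zero =>
    intro X _ _ _ F hF
    refine contDiff_zero.2 (Differentiable.continuous (𝕜 := ℝ) fun w => ?_)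
    exact (hasFDerivAt_param (hF.of_le (by exact_mod_cast le_top)) w).differentiableAt
  | succ n ih =>
    intro X _ _ _ F hF
    have hd := hasFDerivAt_param (hF.of_le (by exact_mod_cast le_top))
    push_cast
    refine contDiff_succ_iff_fderiv.2 ⟨fun w => (hd w).differentiableAt, by simp, ?_⟩
    rw [funext fun w => (hd w).fderiv]
    exact ih ((hF.fderiv_right (by simp)).clm_comp contDiff_const)

end param

/-- The average along the last coordinate. -/
noncomputable def avg (f : (Fin 4 → ℝ) → ℝ) (y : Fin 3 → ℝ) : ℝ :=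
  ∫ t in (0 : ℝ)..1, f (emb y + t • Pi.single 3 1)

lemma avg_smooth {f : (Fin 4 → ℝ) → ℝ} (hf : ContDiff ℝ ∞ f) : ContDiff ℝ ∞ (avg f) :=
  contDiff_infty.2 fun n => contDiff_param n (F := fun p => f (emb p.2 + p.1 • Pi.single 3 1))
    (hf.comp ((emb.contDiff.comp contDiff_snd).add (contDiff_fst.smul contDiff_const)))

lemma avg_periodic {f : (Fin 4 → ℝ) → ℝ} (hf : ∀ x (m : Fin 4 → ℤ), f (fun i => x i + m i) = f x)
    (y : Fin 3 → ℝ) (n : Idx) : avg f (y + fun i => (n i : ℝ)) = avg f y := by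
  refine intervalIntegral.integral_congr fun t _ => ?_
  refine Eq.trans (congrArg f ?_) (hf _ ![n 0, n 1, n 2, 0])
  rw [emb_add_int]
  funext i
  simp only [Pi.add_apply]; ring

lemma avg_deriv {f : (Fin 4 → ℝ) → ℝ} (hf : ContDiff ℝ ∞ f) (y : Fin 3 → ℝ) (i : Fin 3) :
    fderiv ℝ (avg f) y (Pi.single i 1) =
      avg (fun x => fderiv ℝ f x (Pi.single i.castSucc 1)) y := by
  set F : ℝ × (Fin 3 → ℝ) → ℝ := fun p => f (emb p.2 + p.1 • Pi.single 3 1) with hF
  have hFs : ContDiff ℝ 1 F :=
    (hf.comp ((emb.contDiff.comp contDiff_snd).add (contDiff_fst.smul contDiff_const))).of_le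
      (by exact_mod_cast le_top)
  have hd := hasFDerivAt_param hFs y
  have hc : Continuous fun q : ℝ => (fderiv ℝ F (q, y)).comp (ContinuousLinearMap.inr ℝ ℝ _) :=
    ((hFs.continuous_fderiv (by simp)).comp (continuous_id.prodMk continuous_const)).clm_comp
      continuous_const
  change fderiv ℝ (fun w => ∫ q in (0 : ℝ)..1, F (q, w)) y _ = _
  rw [hd.fderiv, ContinuousLinearMap.intervalIntegral_apply (hc.intervalIntegrable _ _)]
  refine intervalIntegral.integral_congr fun t _ => ?_
  have h1 : HasFDerivAt (fun w => F (t, w))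
      ((fderiv ℝ F (t, y)).comp (ContinuousLinearMap.inr ℝ ℝ (Fin 3 → ℝ))) y :=
    (hFs.differentiable (by simp) (t, y)).hasFDerivAt.comp y
      ((hasFDerivAt_const t y).prodMk (hasFDerivAt_id y))
  have h2 : HasFDerivAt (fun w => F (t, w))
      ((fderiv ℝ f (emb y + t • Pi.single 3 1)).comp emb) y :=
    ((hf.differentiable (by simp) (emb y + t • Pi.single 3 1)).hasFDerivAt).comp y
      (emb.hasFDerivAt.add_const (t • Pi.single 3 1))
  change (fderiv ℝ F (t, y)).comp (ContinuousLinearMap.inr ℝ ℝ (Fin 3 → ℝ)) (Pi.single i 1) = _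
  rw [h1.unique h2, ContinuousLinearMap.comp_apply, emb_single]

lemma avg_deriv_three {f : (Fin 4 → ℝ) → ℝ} (hf : ContDiff ℝ ∞ f)
    (hp : ∀ x (m : Fin 4 → ℤ), f (fun i => x i + m i) = f x) (y : Fin 3 → ℝ) :
    avg (fun x => fderiv ℝ f x (Pi.single 3 1)) y = 0 := by
  set p : ℝ → (Fin 4 → ℝ) := fun t => emb y + t • Pi.single 3 1
  have hd : ∀ t, HasDerivAt (fun s => f (p s)) (fderiv ℝ f (p t) (Pi.single 3 1)) t := fun t =>
    (hf.differentiable (by simp) (p t)).hasFDerivAt.comp_hasDerivAt t (by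
      have := ((hasDerivAt_id t).smul_const (Pi.single 3 1 : Fin 4 → ℝ)).const_add (emb y)
      simpa [p] using this)
  have hc : Continuous fun t => fderiv ℝ f (p t) (Pi.single 3 1) :=
    ((hf.continuous_fderiv (by simp)).comp (by fun_prop)).clm_apply continuous_const
  refine (intervalIntegral.integral_eq_sub_of_hasDerivAt (fun t _ => hd t)
    (hc.intervalIntegrable _ _)).trans (sub_eq_zero.2 ?_)
  have e : p 1 = fun i => p 0 i + ((Pi.single 3 1 : Fin 4 → ℤ) i : ℝ) := by
    funext i; fin_cases i <;> simp [p]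
  rw [e, hp]

/-- The partial derivative of a component. -/
noncomputable def pd (f : (Fin 3 → ℝ) → F6) (i : Fin 3) (j : Fin 6) (y : Fin 3 → ℝ) : ℝ :=
  fderiv ℝ (fun y => f y j) y (Pi.single i 1)

/-- Closedness of a form which does not depend on the last coordinate. -/
def ClosedPt (f : (Fin 3 → ℝ) → F6) : Prop :=
  ∀ y, pd f 0 0 y + pd f 1 1 y + pd f 2 2 y = 0 ∧ pd f 1 5 y - pd f 2 4 y = 0 ∧
    pd f 2 3 y - pd f 0 5 y = 0 ∧ pd f 0 4 y - pd f 1 3 y = 0

lemma dsum_iff {w : T3 → F6} (hw : Sm w) (a : Fin 3 → ℝ) (i : Fin 3 → Fin 3) (j : Fin 3 → Fin 6) :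
    (∀ y, ∑ n, a n * pd (w ∘ pt) (i n) (j n) y = 0) ↔
      ∀ k : Idx, ∑ n, (a n : ℂ) * ((k (i n) : ℂ) * cf vol w k (j n)) = 0 := by
  choose g hg hgd using fun n => exists_deriv (sm_comp hw (j n)) (i n)
  set h : T3 → ℝ := fun z => ∑ n, a n * g n z with hh
  have hs : Sm h := ContDiff.sum fun n _ => contDiff_const.mul (hg n)
  have hpd : ∀ y, ∑ n, a n * pd (w ∘ pt) (i n) (j n) y = h (pt y) := fun y =>
    Finset.sum_congr rfl fun n _ => congrArg _ (hgd n y)
  have hco : ∀ k, coef vol h k =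
      2 * Real.pi * Complex.I * ∑ n, (a n : ℂ) * ((k (i n) : ℂ) * cf vol w k (j n)) := fun k => by
    rw [Finset.mul_sum]
    calc coef vol h k = ∫ x, ∑ n, (a n : ℂ) * (UnitAddTorus.mFourier (-k) x * (g n x : ℂ)) ∂vol := by
          refine integral_congr_ae (.of_forall fun x => ?_)
          simp only [hh, Complex.ofReal_sum, Complex.ofReal_mul, Finset.mul_sum]
          exact Finset.sum_congr rfl fun n _ => by ring
      _ = ∑ n, (a n : ℂ) * coef vol (g n) k := by
          rw [integral_finsetSum]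
          · exact Finset.sum_congr rfl fun n _ => integral_const_mul _ _
          · intro n _
            obtain ⟨C, -, hC⟩ := exists_bound (sm_continuous (hg n))
            exact (integrable_e_mul (-k) (Complex.continuous_ofReal.comp
              (sm_continuous (hg n))).aestronglyMeasurable
              (R := C) fun x => by simpa using hC x).const_mul _
      _ = _ := Finset.sum_congr rfl fun n _ => by
          rw [coef_deriv (sm_comp hw (j n)) (i n) (hgd n) k, cf_apply]; ring
  simp only [hpd]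
  constructor
  · intro h0 k
    have hz : coef vol h k = 0 := by
      have : h = fun _ => 0 := funext fun z => by obtain ⟨y, rfl⟩ := pt_surj z; exact h0 y
      simp [this, coef]
    rw [hco k] at hz
    exact (mul_eq_zero.1 hz).resolve_left (by simp [Real.pi_ne_zero])
  · intro h0 y
    have := series_hasSum hs (pt y)
    simp only [hco, h0, mul_zero, zero_mul] at this
    exact_mod_cast this.unique hasSum_zero

lemma closed_iff {w : T3 → F6} (hw : Sm w) :
    (∀ k, ClosedAt k (cf vol w k)) ↔ ClosedPt (w ∘ pt) := by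
  have h1 := dsum_iff hw ![1, 1, 1] ![0, 1, 2] ![0, 1, 2]
  have h2 := dsum_iff hw ![1, -1, 0] ![1, 2, 0] ![5, 4, 0]
  have h3 := dsum_iff hw ![1, -1, 0] ![2, 0, 0] ![3, 5, 0]
  have h4 := dsum_iff hw ![1, -1, 0] ![0, 1, 0] ![4, 3, 0]
  simp [Fin.sum_univ_three, ← sub_eq_add_neg] at h1 h2 h3 h4
  simp only [ClosedAt, ClosedPt, forall_and, h1, h2, h3, h4]

/-- Closedness on four-space, from the four equations. -/
lemma closed_mk (d : Fin 4 → F6) (h3 : d 3 = 0) (e1 : d 0 0 + d 1 1 + d 2 2 = 0)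
    (e2 : d 1 5 - d 2 4 = 0) (e3 : d 2 3 - d 0 5 = 0) (e4 : d 0 4 - d 1 3 = 0) (i j k : Fin 4) :
    mk (d i) j k + mk (d j) k i + mk (d k) i j = 0 := by
  fin_cases i <;> fin_cases j <;> fin_cases k <;> simp [mk, h3] <;> linarith

lemma deriv_mk {g : (Fin 3 → ℝ) → F6} (hg : ContDiff ℝ ∞ g) (a b : Fin 4) (x v : Fin 4 → ℝ) :
    fderiv ℝ (fun x => mk (g (base x)) a b) x v = mk (fderiv ℝ g (base x) (base v)) a b := by
  have h : HasFDerivAt (fun x => mk (g (base x)) a b)
      ((entry a b).toContinuousLinearMap.comp ((fderiv ℝ g (base x)).comp base)) x :=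
    (entry a b).toContinuousLinearMap.hasFDerivAt.comp x
      ((hg.differentiable (by simp) _).hasFDerivAt.comp x base.hasFDerivAt)
  rw [h.fderiv]; rfl

lemma fderiv_component {g : (Fin 3 → ℝ) → F6} (hg : ContDiff ℝ ∞ g) (y v : Fin 3 → ℝ)
    (j : Fin 6) : fderiv ℝ g y v j = fderiv ℝ (fun y => g y j) y v := by
  have h := (hasFDerivAt_pi'.1 (hg.differentiable (by simp) y).hasFDerivAt) j
  rw [h.fderiv]; rfl

/-- A lower bound for a quadratic function on a field of subspaces. -/
lemma quad_lower {f : T3 → F6 → ℝ} {g : T3 → F6 → F6 × ℝ}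
    (hf : Continuous fun p : T3 × F6 => f p.1 p.2) (hg : Continuous fun p : T3 × F6 => g p.1 p.2)
    (hf2 : ∀ x (a : ℝ) u, f x (a • u) = a ^ 2 * f x u)
    (hg1 : ∀ x (a : ℝ) u, g x (a • u) = a • g x u)
    (h : ∀ x u, g x u = 0 → u ≠ 0 → 0 < f x u) :
    ∃ c > 0, ∀ x u, g x u = 0 → c * ‖u‖ ^ 2 ≤ f x u := by
  have hK : IsCompact {p : T3 × F6 | p ∈ (Set.univ ×ˢ Metric.sphere 0 1) ∧ g p.1 p.2 = 0} :=
    (isCompact_univ.prod (isCompact_sphere (0 : F6) 1)).inter_right
      (isClosed_eq hg continuous_const)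
  obtain ⟨c, hc, hb⟩ := hK.exists_forall_le' hf.continuousOn (a := 0) fun p hp => by
    refine h p.1 p.2 hp.2 fun h0 => ?_
    have h1 : ‖p.2‖ = 1 := mem_sphere_zero_iff_norm.1 hp.1.2
    simp [h0] at h1
  refine ⟨c, hc, fun x u hu => ?_⟩
  rcases eq_or_ne u 0 with rfl | hu0
  · have := hf2 x 0 0
    simp at this
    simp [this]
  have hn : 0 < ‖u‖ := norm_pos_iff.2 hu0
  have := hb (x, ‖u‖⁻¹ • u) ⟨⟨trivial, by simp [norm_smul, hn.ne']⟩, by
    simp [hg1, hu]⟩
  simp only [hf2] at this
  rw [inv_pow, inv_mul_eq_div, le_div_iff₀ (by positivity)] at this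
  exact this

end Vale.Agent.P204.Bridge
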