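import Vale.Agent.P204.Bridge.Frame
import Vale.Agent.P204.Bridge.Calculus

/-!
The abstract data of an almost complex structure on the three-torus.
-/

open MeasureTheory Filter Topology
open scoped ContDiff Matrix

namespace Vale.Agent.P204.Bridge

/-- The covector paired with a covector on the base. -/
def lamM (K : Matrix (Fin 4) (Fin 4) ℝ) : Matrix (Fin 4) (Fin 3) ℝ :=
  Matrix.of fun j i => -(K i.castSucc j)

/-- The value of a covector on the base. -/
def cov (ξ : Fin 3 → ℝ) (x : Fin 4 → ℝ) : ℝ := ∑ i, ξ i * x i.castSucc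

lemma B_levi (K : Matrix (Fin 4) (Fin 4) ℝ) (ξ : Fin 3 → ℝ) (x y : Fin 4 → ℝ) :
    B (wedge3 ξ (lamM K *ᵥ ξ)) x y =
      cov ξ (K *ᵥ x) * cov ξ y - cov ξ x * cov ξ (K *ᵥ y) := by
  simp [B, mk, wedge3, lamM, cov, Matrix.mulVec, dotProduct, Fin.sum_univ_three,
    Fin.sum_univ_four]
  ring

variable {K : Matrix (Fin 4) (Fin 4) ℝ}

lemma cov_neg (ξ : Fin 3 → ℝ) (x : Fin 4 → ℝ) : cov ξ (-x) = -cov ξ x := by simp [cov]

lemma levi_inv (hK : K * K = -1) (ξ : Fin 3 → ℝ) :
    T K (wedge3 ξ (lamM K *ᵥ ξ)) = wedge3 ξ (lamM K *ᵥ ξ) :=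
  B_ext fun x y => by
    simp only [B_T, B_levi, K_K hK, cov_neg]; ring

lemma levi_value (hK : K * K = -1) (ξ : Fin 3 → ℝ) (x : Fin 4 → ℝ) :
    B (wedge3 ξ (lamM K *ᵥ ξ)) x (K *ᵥ x) = cov ξ x ^ 2 + cov ξ (K *ᵥ x) ^ 2 := by
  simp only [B_levi, K_K hK, cov_neg]; ring

lemma levi_sum_posi (hK : K * K = -1) :
    Posi K (∑ i, wedge3 (Pi.single i 1) (lamM K *ᵥ Pi.single i 1)) := fun x hx => by
  rw [B_sum]
  simp only [levi_value hK]
  have hc : ∀ (i : Fin 3) z, cov (Pi.single i 1) z = z i.castSucc := fun i z => by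
    simp [cov, Pi.single_apply]
  simp only [hc]
  by_contra h
  set y := K *ᵥ x with hy
  have hz : ∀ i : Fin 3, x i.castSucc = 0 ∧ y i.castSucc = 0 := fun i => by
    have h1 := (Finset.single_le_sum (f := fun i : Fin 3 => x i.castSucc ^ 2 + y i.castSucc ^ 2)
      (fun j _ => add_nonneg (sq_nonneg _) (sq_nonneg _)) (Finset.mem_univ i)).trans (not_lt.1 h)
    constructor <;> nlinarith [sq_nonneg (x i.castSucc), sq_nonneg (y i.castSucc)]
  have z0 : x 0 = 0 := (hz 0).1
  have hx3 : x 3 ≠ 0 := fun h3 => hx <| by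
    funext i; fin_cases i
    exacts [(hz 0).1, (hz 1).1, (hz 2).1, h3]
  have hr : y = (y 3 / x 3) • x := by
    funext i; fin_cases i
    · exact (hz 0).2.trans (by simp [z0])
    · exact (hz 1).2.trans (by simp [show x 1 = 0 from (hz 1).1])
    · exact (hz 2).2.trans (by simp [show x 2 = 0 from (hz 2).1])
    · simp [hx3]
  set r := y 3 / x 3
  have h2 : -x = r • (r • x) := by
    rw [← K_K hK x, ← hy, ← hr]
    conv_lhs => rw [hr]
    rw [Matrix.mulVec_smul, ← hy]
  have h3 := congr_fun h2 3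
  simp at h3
  exact hx3 (by nlinarith [mul_self_nonneg r, mul_self_nonneg (x 3)])

lemma cd_T {E : Type*} [NormedAddCommGroup E] [NormedSpace ℝ E]
    {k : E → Matrix (Fin 4) (Fin 4) ℝ} {u : E → F6}
    (hk : ∀ a b, ContDiff ℝ ∞ fun y => k y a b) (hu : ∀ m, ContDiff ℝ ∞ fun y => u y m) :
    ContDiff ℝ ∞ fun y => T (k y) (u y) := by
  refine contDiff_pi.2 fun i => ?_
  fin_cases i <;> simp [T, t6, mk, Matrix.mul_apply, Fin.sum_univ_four] <;> fun_prop

lemma cd_prM {E : Type*} [NormedAddCommGroup E] [NormedSpace ℝ E]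
    {k : E → Matrix (Fin 4) (Fin 4) ℝ} (hk : ∀ a b, ContDiff ℝ ∞ fun y => k y a b) (i j : Fin 6) :
    ContDiff ℝ ∞ fun y => prM (k y) i j := by
  have h : (fun y => prM (k y) i j) =
      fun y => (1 / 2 : ℝ) * ((Pi.single j 1 : F6) i - T (k y) (Pi.single j 1) i) :=
    funext fun y => by simpa using congr_fun (prM_mulVec (k y) (Pi.single j 1)) i
  rw [h]
  exact contDiff_const.mul (contDiff_const.sub
    (contDiff_pi.1 (cd_T (u := fun _ => Pi.single j 1) hk fun m => contDiff_const) i))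

lemma sm_prM {K : T3 → Matrix (Fin 4) (Fin 4) ℝ} (hKs : ∀ a b, Sm fun z => K z a b)
    (i j : Fin 6) : Sm fun z => prM (K z) i j :=
  cd_prM (k := fun y => K (pt y)) hKs i j

/-- The data, from the structure and a taming form. -/
lemma exists_data (K : T3 → Matrix (Fin 4) (Fin 4) ℝ) (hKs : ∀ a b, Sm fun z => K z a b)
    (hK : ∀ z, K z * K z = -1) (u : T3 → F6) (hu : ClosedForm u)
    (hup : ∀ z, Posi (K z) (u z)) :
    ∃ D : Data, D.Tamed ∧ ∀ z w, D.pr z *ᵥ w = 0 → 0 < qR D.s w w → 0 < qR D.s w (D.e0 z) →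
      T (K z) w = w ∧ Posi (K z) w := by
  set e : T3 → F6 := fun z => (1 / 2 : ℝ) • (u z + T (K z) (u z)) with he
  have hes : Sm e :=
    (hu.1.add (cd_T hKs fun m => sm_comp hu.1 m)).const_smul (1 / 2 : ℝ)
  have hei : ∀ z, T (K z) (e z) = e z := fun z => by
    simp only [he, map_smul, map_add, T_T (hK z)]; rw [add_comm]
  have hep : ∀ z, Posi (K z) (e z) := fun z v hv => by
    simp only [he, B_form_smul, B_form_add, B_T, K_K (hK z), B_neg_right,
      B_skew (u z) v (K z *ᵥ v)]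
    linarith [hup z v hv]
  set f : (Fin 3 → ℝ) → ℝ := fun y => qR 1 (e (pt y)) (e (pt y))
  have hfc : Continuous f :=
    (continuous_qR 1).comp (hes.continuous.prodMk hes.continuous)
  have hf0 : ∀ y, f y ≠ 0 := fun y => q_ne_zero (hK _) (hei _) (hep _)
  obtain ⟨s, hs, hsp⟩ : ∃ s : ℝ, (s = 1 ∨ s = -1) ∧ ∀ z, 0 < qR s (e z) (e z) := by
    rcases (hf0 0).lt_or_gt with h | h
    · refine ⟨-1, .inr rfl, fun z => ?_⟩
      obtain ⟨y, rfl⟩ := Four.pt_surj z
      by_contra hn
      rw [qR_one] at hn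
      obtain ⟨y', hy'⟩ := intermediate_value_univ 0 y hfc
        (show (0 : ℝ) ∈ Set.Icc (f 0) (f y) from ⟨h.le, by simp [f] at hn ⊢; linarith⟩)
      exact hf0 y' hy'
    · refine ⟨1, .inl rfl, fun z => ?_⟩
      obtain ⟨y, rfl⟩ := Four.pt_surj z
      by_contra hn
      obtain ⟨y', hy'⟩ := intermediate_value_univ y 0 hfc
        (show (0 : ℝ) ∈ Set.Icc (f y) (f 0) from ⟨not_lt.1 hn, h.le⟩)
      exact hf0 y' hy'
  set r : T3 → ℝ := fun z => (Real.sqrt (qR s (e z) (e z)))⁻¹
  have hr : ∀ z, 0 < r z := fun z => inv_pos.2 (Real.sqrt_pos.2 (hsp z))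
  set e0 : T3 → F6 := fun z => r z • e z
  have he0s : Sm e0 := by
    have hq : ContDiff ℝ ∞ fun y => qR s (e (pt y)) (e (pt y)) := by
      simp only [qR]
      exact contDiff_const.mul
        (ContDiff.sum fun i _ => (sm_comp hes i).mul (sm_comp hes (i + 3)))
    exact ((hq.sqrt fun y => (hsp _).ne').inv fun y =>
      (Real.sqrt_pos.2 (hsp _)).ne').smul hes
  have hunit : ∀ z, qR s (e0 z) (e0 z) = 1 := fun z => by
    simp only [e0, r, qR_smul_left, qR_smul_right]
    rw [← mul_assoc, ← mul_inv, Real.mul_self_sqrt (hsp z).le, inv_mul_cancel₀ (hsp z).ne']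
  have htl : ∀ z, Timelike (K z) s (e0 z) := fun z =>
    ⟨hK z, by simp [e0, hei],
      fun v hv => by rw [B_form_smul]; exact mul_pos (hr z) (hep z v hv),
      by rw [hunit]; exact one_pos⟩
  have hprs : ∀ i j, Sm fun z => prM (K z) i j := fun i j => sm_prM hKs i j
  have hpc : Continuous fun p : T3 × F6 => prM (K p.1) *ᵥ p.2 :=
    (continuous_matrix fun i j => (Four.sm_continuous (hprs i j)).comp continuous_fst).matrix_mulVec
      continuous_snd
  have hqc : Continuous fun p : T3 × F6 => qR s p.2 p.2 :=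
    (continuous_qR s).comp (continuous_snd.prodMk continuous_snd)
  obtain ⟨cp, hcp, hpos⟩ := quad_lower (f := fun _ u => qR s u u)
    (g := fun z u => (prM (K z) *ᵥ u - u, 0)) hqc ((hpc.sub continuous_snd).prodMk continuous_const)
    (fun z a u => by rw [qR_smul_left, qR_smul_right]; ring)
    (fun z a u => by simp [Matrix.mulVec_smul, smul_sub])
    (fun z u hg hu0 => anti_pos (htl z) ((prM_fix_iff u).1 (sub_eq_zero.1 (congrArg Prod.fst hg)))
      hu0)
  obtain ⟨cn, hcn, hneg⟩ := quad_lower (f := fun _ u => -qR s u u)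
    (g := fun z u => (prM (K z) *ᵥ u, qR s u (e0 z))) hqc.neg
    (hpc.prodMk ((continuous_qR s).comp (continuous_snd.prodMk
      ((Four.sm_continuous he0s).comp continuous_fst))))
    (fun z a u => by rw [qR_smul_left, qR_smul_right]; ring)
    (fun z a u => by simp [Matrix.mulVec_smul, qR_smul_left])
    (fun z u hg hu0 => neg_pos.2 (inv_neg (htl z) ((prM_eq_zero_iff u).1 (congrArg Prod.fst hg))
      (congrArg Prod.snd hg) hu0))
  let D : Data :=
    { s := s
      hs := hs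
      pr := fun z => prM (K z)
      e0 := e0
      lam := fun z => lamM (K z)
      sm_pr := hprs
      sm_e0 := he0s
      sm_lam := fun i j => (hKs j.castSucc i).neg
      idem := fun z => prM_idem (hK z)
      selfAdj := fun z u v => prM_selfAdj (hK z) s u v
      pos := ⟨cp, hcp, fun z u => hpos z _ (by simp [Matrix.mulVec_mulVec, prM_idem (hK z)])⟩
      pr_e0 := fun z => (prM_eq_zero_iff _).2 (htl z).inv
      unit := hunit
      neg := ⟨cn, hcn, fun z u h1 h2 => le_neg.1 (hneg z u (by simp [h1, h2]))⟩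
      pr_levi := fun z ξ => (prM_eq_zero_iff _).2 (levi_inv (hK z) ξ)
      levi_nonneg := fun z ξ => semi_nonneg (htl z) (levi_inv (hK z) ξ) fun v => by
        rw [levi_value (hK z)]; positivity
      levi_pos := fun z => posi_q_pos (htl z)
        (by rw [map_sum]; exact Finset.sum_congr rfl fun i _ => levi_inv (hK z) _)
        (levi_sum_posi (hK z)) }
  refine ⟨D, ⟨u, hu, fun z => ?_⟩, fun z w h1 h2 h3 => ?_⟩
  · have h11 : D.p11 z (u z) = e z := by
      change u z - prM (K z) *ᵥ u z = _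
      rw [prM_mulVec]; simp only [he]; module
    rw [h11]
    refine ⟨hsp z, ?_⟩
    have : qR s (u z) (e0 z) = qR s (e z) (e0 z) := by
      rw [← h11, Data.p11, qR_sub_left, D.selfAdj, D.pr_e0, qR_zero_right, sub_zero]
    change 0 < qR s (u z) (e0 z)
    rw [this, qR_smul_right]
    exact mul_pos (hr z) (hsp z)
  · have hw := (prM_eq_zero_iff w).1 h1
    exact ⟨hw, posi_of_cone (htl z) hw h2 h3⟩

end Vale.Agent.P204.Bridge
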