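import Vale.Agent.P204.Bridge.Forms

/-!
Signs of the wedge pairing on invariant and anti-invariant forms, in an adapted frame.
-/

open scoped Matrix

namespace Vale.Agent.P204.Bridge

variable {K : Matrix (Fin 4) (Fin 4) ℝ}

/-- The form is positive on complex lines. -/
def Posi (K : Matrix (Fin 4) (Fin 4) ℝ) (e : F6) : Prop :=
  ∀ v, v ≠ 0 → 0 < B e v (K *ᵥ v)

/-- The frame `v, Kv, w, Kw`, as the columns of a matrix. -/
def fr (K : Matrix (Fin 4) (Fin 4) ℝ) (v w : Fin 4 → ℝ) : Matrix (Fin 4) (Fin 4) ℝ :=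
  Matrix.of fun i j => ![v, K *ᵥ v, w, K *ᵥ w] j i

lemma exists_orth (e : F6) (v : Fin 4 → ℝ) :
    ∃ w, w ≠ 0 ∧ B e v w = 0 ∧ B e v (K *ᵥ w) = 0 := by
  let f : (Fin 4 → ℝ) →ₗ[ℝ] ℝ × ℝ :=
    { toFun := fun w => (B e v w, B e v (K *ᵥ w))
      map_add' := fun a b => by simp [Matrix.mulVec_add, B_add_right]
      map_smul' := fun c a => by simp [Matrix.mulVec_smul, B_smul_right] }
  have h : LinearMap.ker f ≠ ⊥ := fun h => by
    have := LinearMap.finrank_le_finrank_of_injective (LinearMap.ker_eq_bot.1 h)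
    simp at this
  obtain ⟨w, hw, hw0⟩ := Submodule.exists_mem_ne_zero_of_ne_bot h
  have hw' : f w = 0 := hw
  exact ⟨w, hw0, congrArg Prod.fst hw', congrArg Prod.snd hw'⟩

lemma fr_congr (u : F6) (v w : Fin 4 → ℝ) : t6 ((fr K v w)ᵀ * mk u * fr K v w) =
    ![B u (K *ᵥ v) w, B u w v, B u v (K *ᵥ v), B u v (K *ᵥ w),
      B u (K *ᵥ v) (K *ᵥ w), B u w (K *ᵥ w)] := by
  funext i
  fin_cases i <;> simp [t6, congr_apply, fr, B]

/-- The quantities attached to a form in the frame. -/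
lemma fr_inv (hK : K * K = -1) {u : F6} (hu : T K u = u) (v w : Fin 4 → ℝ) :
    t6 ((fr K v w)ᵀ * mk u * fr K v w) =
      ![-B u v (K *ᵥ w), -B u v w, B u v (K *ᵥ v), B u v (K *ᵥ w), B u v w,
        B u w (K *ᵥ w)] := by
  have h : ∀ x y, B u (K *ᵥ x) (K *ᵥ y) = B u x y := fun x y => by rw [← B_T, hu]
  have h1 : B u (K *ᵥ v) w = -B u v (K *ᵥ w) := by
    rw [← h (K *ᵥ v) w, K_K hK, B_neg_left]
  rw [fr_congr, h1, h v w, B_skew u v w]

lemma fr_anti (hK : K * K = -1) {u : F6} (hu : T K u = -u) (v w : Fin 4 → ℝ) :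
    t6 ((fr K v w)ᵀ * mk u * fr K v w) =
      ![B u v (K *ᵥ w), -B u v w, 0, B u v (K *ᵥ w), -B u v w, 0] := by
  have h : ∀ x y, B u (K *ᵥ x) (K *ᵥ y) = -B u x y := fun x y => by
    rw [← B_T, hu, ← neg_one_smul ℝ u, B_form_smul]; ring
  have h1 : B u (K *ᵥ v) w = B u v (K *ᵥ w) := by
    have := h (K *ᵥ v) w
    rw [K_K hK, B_neg_left] at this
    linarith
  have h2 : ∀ x, B u x (K *ᵥ x) = 0 := fun x => by
    have := h x (K *ᵥ x)
    rw [K_K hK, B_neg_right, B_skew u x (K *ᵥ x)] at this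
    linarith
  rw [fr_congr, h1, h v w, h2, h2, B_skew u v w]

lemma det_mul_q (P : Matrix (Fin 4) (Fin 4) ℝ) (s : ℝ) (u u' : F6) :
    P.det * qR s u u' = s * qR 1 (t6 (Pᵀ * mk u * P)) (t6 (Pᵀ * mk u' * P)) := by
  rw [q_congr, qR_one s u]; ring

lemma frame_self (hK : K * K = -1) {e : F6} (he : T K e = e) (hp : Posi K e) {v w : Fin 4 → ℝ}
    (hv : v ≠ 0) (hw : w ≠ 0) (h1 : B e v w = 0) (h2 : B e v (K *ᵥ w) = 0) :
    (fr K v w).det ≠ 0 ∧ qR 1 e e ≠ 0 := by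
  have h := det_mul_q (fr K v w) 1 e e
  rw [fr_inv hK he, h1, h2, q_eq 1 ![_, _, _, _, _, _]] at h
  simp at h
  have hab := mul_pos (hp v hv) (hp w hw)
  constructor <;> intro h0 <;> rw [h0] at h <;> simp at h <;> linarith

lemma q_ne_zero (hK : K * K = -1) {e : F6} (he : T K e = e) (hp : Posi K e) : qR 1 e e ≠ 0 := by
  have hv : (Pi.single 0 1 : Fin 4 → ℝ) ≠ 0 := fun h => by simpa using congr_fun h 0
  obtain ⟨w, hw, h1, h2⟩ := exists_orth (K := K) e (Pi.single 0 1)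
  exact (frame_self hK he hp hv hw h1 h2).2

/-- A positive invariant form, with its sign. -/
structure Timelike (K : Matrix (Fin 4) (Fin 4) ℝ) (s : ℝ) (e : F6) : Prop where
  sq : K * K = -1
  inv : T K e = e
  posi : Posi K e
  sign : 0 < qR s e e

/-- The numbers of a frame adapted to a timelike form. -/
structure Adapted (K : Matrix (Fin 4) (Fin 4) ℝ) (s : ℝ) (e : F6) (v w : Fin 4 → ℝ) : Prop where
  a_pos : 0 < B e v (K *ᵥ v)
  b_pos : 0 < B e w (K *ᵥ w)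
  orth : B e v w = 0 ∧ B e v (K *ᵥ w) = 0
  det : (fr K v w).det ≠ 0
  ex : ∃ k > 0, (∀ u, T K u = u →
      qR s u u = k * (2 * (B u v (K *ᵥ v) * B u w (K *ᵥ w) - B u v w ^ 2 - B u v (K *ᵥ w) ^ 2)) ∧
      qR s u e = k * (B u v (K *ᵥ v) * B e w (K *ᵥ w) + B u w (K *ᵥ w) * B e v (K *ᵥ v))) ∧
    ∀ u, T K u = -u → qR s u u = k * (2 * (B u v w ^ 2 + B u v (K *ᵥ w) ^ 2))

lemma exists_adapted {s : ℝ} {e : F6} (h : Timelike K s e) {v : Fin 4 → ℝ} (hv : v ≠ 0) :
    ∃ w, Adapted K s e v w := by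
  obtain ⟨hK, he, hp, hs⟩ := h
  obtain ⟨w, hw, h1, h2⟩ := exists_orth (K := K) e v
  obtain ⟨hd, -⟩ := frame_self hK he hp hv hw h1 h2
  refine ⟨w, hp v hv, hp w hw, ⟨h1, h2⟩, hd, s / (fr K v w).det, ?_, fun u hu => ?_,
    fun u hu => ?_⟩
  · have h := det_mul_q (fr K v w) s e e
    rw [fr_inv hK he, h1, h2, q_eq 1 ![_, _, _, _, _, _]] at h
    simp at h
    have hab := mul_pos (hp v hv) (hp w hw)
    by_contra hk
    have hk' : s / (fr K v w).det ≤ 0 := not_lt.1 hk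
    have : qR s e e = s / (fr K v w).det *
        (2 * (B e v (K *ᵥ v) * B e w (K *ᵥ w))) := by
      rw [div_mul_eq_mul_div, eq_div_iff hd]; linarith
    nlinarith
  · constructor <;> rw [div_mul_eq_mul_div, eq_div_iff hd, mul_comm _ (fr K v w).det, det_mul_q,
      fr_inv hK hu]
    · rw [q_eq]; simp; left; ring
    · rw [fr_inv hK he, h1, h2, q_eq]; simp
  · rw [div_mul_eq_mul_div, eq_div_iff hd, mul_comm _ (fr K v w).det, det_mul_q,
      fr_anti hK hu, q_eq]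
    simp; left; ring

lemma eq_zero_of_fr {v w : Fin 4 → ℝ} (hd : (fr K v w).det ≠ 0) {u : F6}
    (h : t6 ((fr K v w)ᵀ * mk u * fr K v w) = 0) : u = 0 := by
  set P := fr K v w
  have hP : IsUnit P.det := isUnit_iff_ne_zero.2 hd
  have hz : Pᵀ * mk u * P = 0 := by
    rw [← mk_t6 (congr_skew P u), h]
    ext a b; fin_cases a <;> fin_cases b <;> simp [mk]
  have : mk u = 0 := by
    calc mk u = Pᵀ⁻¹ * (Pᵀ * mk u * P) * P⁻¹ := by
          rw [Matrix.mul_assoc Pᵀ, Matrix.nonsing_inv_mul_cancel_left _ _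
            (by rwa [Matrix.det_transpose]), Matrix.mul_nonsing_inv_cancel_right _ _ hP]
      _ = 0 := by simp [hz]
  rw [← t6_mk u, this]
  funext i; fin_cases i <;> simp [t6]

variable {s : ℝ} {e : F6}

lemma v0_ne : (Pi.single 0 1 : Fin 4 → ℝ) ≠ 0 := fun h => by simpa using congr_fun h 0

lemma anti_pos (h : Timelike K s e) {u : F6} (hu : T K u = -u) (hu0 : u ≠ 0) :
    0 < qR s u u := by
  obtain ⟨w, -, -, -, hd, k, hk, -, hq⟩ := exists_adapted h v0_ne
  rw [hq u hu]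
  refine mul_pos hk (lt_of_le_of_ne (by positivity) fun h0 => hu0 (eq_zero_of_fr hd ?_))
  rw [fr_anti h.sq hu]
  set c := B u (Pi.single 0 1) w
  set d := B u (Pi.single 0 1) (K *ᵥ w)
  have hc : c = 0 := by nlinarith [sq_nonneg c, sq_nonneg d]
  have hd' : d = 0 := by nlinarith [sq_nonneg c, sq_nonneg d]
  simp [hc, hd']

lemma inv_neg (h : Timelike K s e) {u : F6} (hu : T K u = u) (he : qR s u e = 0) (hu0 : u ≠ 0) :
    qR s u u < 0 := by
  obtain ⟨w, ha, hb, -, hd, k, hk, hq, -⟩ := exists_adapted h v0_ne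
  obtain ⟨h1, h2⟩ := hq u hu
  rw [h2] at he
  rw [h1]
  set α := B u (Pi.single 0 1) (K *ᵥ Pi.single 0 1) with hα
  set β := B u w (K *ᵥ w) with hβ
  set a := B e (Pi.single 0 1) (K *ᵥ Pi.single 0 1)
  set b := B e w (K *ᵥ w)
  set c := B u (Pi.single 0 1) w with hc
  set d := B u (Pi.single 0 1) (K *ᵥ w) with hd'
  have h0 : α * b + β * a = 0 := (mul_eq_zero.1 he).resolve_left hk.ne'
  refine mul_neg_of_pos_of_neg hk ?_
  by_contra hn
  have hab : 0 ≤ α * β - c ^ 2 - d ^ 2 := by linarith [not_lt.1 hn]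
  have hαz : α = 0 := by
    by_contra hα0
    have : 0 < α ^ 2 * b := by positivity
    have e1 : α * β * a = -(α ^ 2 * b) := by linear_combination α * h0
    nlinarith
  have hβz : β = 0 := by
    rw [hαz] at h0; simpa [ha.ne'] using h0
  have hcz : c = 0 := by rw [hαz] at hab; nlinarith [sq_nonneg c, sq_nonneg d]
  have hdz : d = 0 := by rw [hαz] at hab; nlinarith [sq_nonneg c, sq_nonneg d]
  refine hu0 (eq_zero_of_fr hd ?_)
  rw [fr_inv h.sq hu, ← hα, ← hβ, ← hc, ← hd', hαz, hβz, hcz, hdz]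
  simp

/-- The forward cone consists of positive forms. -/
lemma posi_of_cone (h : Timelike K s e) {u : F6} (hu : T K u = u) (h1 : 0 < qR s u u)
    (h2 : 0 < qR s u e) : Posi K u := fun v hv => by
  obtain ⟨w, ha, hb, -, -, k, hk, hq, -⟩ := exists_adapted h hv
  obtain ⟨q1, q2⟩ := hq u hu
  rw [q1] at h1
  rw [q2] at h2
  set α := B u v (K *ᵥ v)
  set β := B u w (K *ᵥ w)
  have e1 := pos_of_mul_pos_right h1 hk.le
  have e2 := pos_of_mul_pos_right h2 hk.le
  have hab : 0 < α * β := by nlinarith [sq_nonneg (B u v w), sq_nonneg (B u v (K *ᵥ w))]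
  by_contra hα
  have hα' : α ≤ 0 := not_lt.1 hα
  have hβ : β ≤ 0 := by by_contra hβ; nlinarith [not_le.1 hβ]
  nlinarith [mul_nonpos_of_nonpos_of_nonneg hα' hb.le, mul_nonpos_of_nonpos_of_nonneg hβ ha.le]

lemma semi_nonneg (h : Timelike K s e) {u : F6} (hu : T K u = u)
    (hs : ∀ v, 0 ≤ B u v (K *ᵥ v)) : 0 ≤ qR s u e := by
  obtain ⟨w, ha, hb, -, -, k, hk, hq, -⟩ := exists_adapted h v0_ne
  rw [(hq u hu).2]
  exact mul_nonneg hk.le (add_nonneg (mul_nonneg (hs _) hb.le) (mul_nonneg (hs _) ha.le))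

lemma posi_q_pos (h : Timelike K s e) {u : F6} (hu : T K u = u) (hp : Posi K u) :
    0 < qR s u u := by
  set v : Fin 4 → ℝ := Pi.single 0 1
  have hv : v ≠ 0 := v0_ne
  obtain ⟨w, ha, hb, ⟨o1, o2⟩, -, k, hk, hq, -⟩ := exists_adapted h hv
  rw [(hq u hu).1]
  have hw : w ≠ 0 := fun h0 => by rw [h0] at hb; simp [B] at hb
  have hβ : 0 < B u w (K *ᵥ w) := hp w hw
  set α := B u v (K *ᵥ v) with hα
  set β := B u w (K *ᵥ w) with hβd
  set c := B u v w with hc
  set d := B u v (K *ᵥ w) with hd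
  set x := β • v + (-d) • w + c • (K *ᵥ w) with hx
  have hKx : K *ᵥ x = β • (K *ᵥ v) + (-d) • (K *ᵥ w) + (-c) • w := by
    simp [hx, Matrix.mulVec_add, Matrix.mulVec_smul, K_K h.sq, Matrix.mulVec_neg]
  have hx0 : x ≠ 0 := fun h0 => by
    have : B e v (K *ᵥ x) = 0 := by simp [h0, B]
    rw [hKx] at this
    simp only [B_add_right, B_smul_right, o1, o2] at this
    nlinarith
  have hI : ∀ a b, B u (K *ᵥ a) (K *ᵥ b) = B u a b := fun a b => by rw [← B_T, hu]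
  have hwv : B u w (K *ᵥ v) = d := by
    rw [← hI w (K *ᵥ v), K_K h.sq, B_neg_right, B_skew u v (K *ᵥ w), ← hd, neg_neg]
  have hval : B u x (K *ᵥ x) = β * (α * β - c ^ 2 - d ^ 2) := by
    rw [hKx, hx]
    simp only [B_add_left, B_add_right, B_smul_left, B_smul_right, B_self, hI, hwv,
      B_skew u w (K *ᵥ w), B_skew u v w, ← hα, ← hβd, ← hc, ← hd]
    ring
  have := hp x hx0
  rw [hval] at this
  have := pos_of_mul_pos_right this hβ.le
  positivity

end Vale.Agent.P204.Bridge
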